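import Vale.Agent.P302.DataA

/-!
P302: for every `m ≥ 10` there is a bin packing instance with `OPT = m` and
`OPT - LP ≥ 29/24 > 6/5`.
-/

namespace Vale.Agent.Results.P302.LargeGap

open Vale.Agent.P302

theorem result : ∀ m : ℕ, 10 ≤ m → ∃ (n : ℕ) (a : Fin n → ℚ),
    IsInstance a ∧ OPT a = m ∧ (29 / 24 : ℝ) ≤ (OPT a : ℝ) - LP a := by
  intro m hm
  obtain ⟨j, rfl⟩ : ∃ j, m = 9 + j + 1 := ⟨m - 10, by omega⟩
  have h := Good.add (C := 1800) (by norm_num) (by norm_num) DataA.good j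
  rw [show 10 + j = 9 + j + 1 by omega] at h
  obtain ⟨n, a, h1, h2, h3⟩ := Good.main (by norm_num) h
  refine ⟨n, a, h1, h2, ?_⟩
  rw [h2]
  push_cast at h3 ⊢
  linarith

end Vale.Agent.Results.P302.LargeGap
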