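import Vale.Agent.P302.DataC

/-!
P302: for every sufficiently large `m` there is a bin packing instance with `OPT = m` and
`OPT - LP ≥ 59/40 = 1.475`.
-/

namespace Vale.Agent.Results.P302.LargeGap3

open Vale.Agent.P302

theorem result : ∃ m₀ : ℕ, ∀ m : ℕ, m₀ ≤ m → ∃ (n : ℕ) (a : Fin n → ℚ),
    IsInstance a ∧ OPT a = m ∧ (59 / 40 : ℝ) ≤ (OPT a : ℝ) - LP a := by
  obtain ⟨C, m₀, hC, hm, h⟩ := Nest.DataC.top_good
  refine ⟨m₀, fun m hmm => ?_⟩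
  obtain ⟨j, rfl⟩ : ∃ j, m = m₀ + j := ⟨m - m₀, by omega⟩
  have h := Good.add (C := C) hC (by omega) h j
  obtain ⟨k, rfl⟩ : ∃ k, m₀ = k + 1 := ⟨m₀ - 1, by omega⟩
  rw [show k + 1 + j = k + j + 1 by omega] at h
  obtain ⟨n, a, h1, h2, h3⟩ := Good.main hC h
  refine ⟨n, a, h1, by omega, ?_⟩
  rw [h2]
  have h4 : ((737275 : ℕ) : ℝ) ≤ ((k + 1 : ℕ) : ℝ) := Nat.cast_le.2 (by omega)
  push_cast at h3 h4 ⊢
  linarith

end Vale.Agent.Results.P302.LargeGap3
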